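import Vale.Agent.P313.H72.UD.B3

/-!
Module B: the assembly.
-/

namespace Vale.Agent.P313.UD.B

open Finset

theorem coinCompile : CoinCompile := by
  classical
  intro ini nx fi Inv rk d hLi hLn hLf hInv hI0 hrk0 hrk
  have hLg : LF (fun x a => TS.CM.gg (fi x (a 0)) : Fn 1) := by
    have h1 : LFP (fun x a => fi x (a 0) = 0 : List Bool → (Fin 1 → ℕ) → Prop) :=
      LFP.eq hLf (LF.const 0)
    have h2 : LFP (fun x a => fi x (a 0) = 2 : List Bool → (Fin 1 → ℕ) → Prop) :=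
      LFP.eq hLf (LF.const 2)
    exact (LF.ite h1 (LF.const 0) (LF.ite h2 (LF.const 2) (LF.const 1))).congr
      (fun x a => rfl)
  obtain ⟨Pi, Ci, hCi, hPi⟩ := hLi
  obtain ⟨Pn, Cn, hCn, hPn⟩ := hLn
  obtain ⟨Pg, Cg, hCg, hPg⟩ := hLg
  obtain ⟨e1, he1⟩ := pb_bound hCi d
  obtain ⟨e2, he2⟩ := pb_bound hCn (d + 1)
  obtain ⟨e3, he3⟩ := pb_bound hCg d
  set A := TS.emb (Prog.seq (Pi ![] 0 4) (Pg ![0] 2 4)) with hA
  set B := TS.emb (Prog.seq (Pn ![0, 1] 3 4) (Prog.seq (clear 0) (Prog.seq (clear 1)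
        (Prog.seq (move 3 0) (Pg ![0] 2 4))))) with hB
  obtain ⟨K, hK⟩ := TS.TMC.exists_IOk (TS.CM.chCode A B)
    (TS.CM.chCode_no (TS.CM.emb_noO _) (TS.CM.emb_noO _))
  set F := e1 + e2 + e3 + d with hF
  refine ⟨TS.CM.coinM (TS.CM.chCode A B) K (A.len + 4), 4 * (F + 6), ?_⟩
  -- everything for one input
  have key : ∀ x : List Bool, ∃ (cB N C : ℕ) (c0 : (TS.TMC.mach (TS.CM.chCode A B) K).Cfg),
      TS.CM.Setup (TS.CM.chCode A B) K A.len (A.len + 4) x (nx x) (fi x) (Inv x) (rk x)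
        ((x.length + 2) ^ d) (4 * cB + 1) N C ∧
      TS.CM.Seg (TS.CM.chCode A B) K x C (N ^ 3)
        (TS.TMC.mach (TS.CM.chCode A B) K).init c0 ∧
      TS.TMC.Sim N 0 c0 (A.len, TS.CM.st (ini x) 0 (TS.CM.gg (fi x (ini x)))) ∧
      N ^ 3 + ((x.length + 2) ^ d + 1) * TS.CM.T1 (4 * cB + 1) N ≤
        (x.length + 2) ^ (4 * (F + 6)) ∧
      C ≤ 4 * (F + 6) * Nat.log 2 (x.length + 2) := by
    intro x
    set Z := x.length + 2 with hZ
    have hZ2 : 2 ≤ Z := by omega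
    have hmono : ∀ {a b : ℕ}, a ≤ b → Z ^ a ≤ Z ^ b := fun h => Nat.pow_le_pow_right (by omega) h
    have h1F : 1 ≤ Z ^ F := Nat.one_le_pow _ _ (by omega)
    have hdF : Z ^ d ≤ Z ^ F := hmono (by omega)
    have h1d : 1 ≤ Z ^ d := Nat.one_le_pow _ _ (by omega)
    have hdd : Z ^ d ≤ Z ^ (d + 1) := hmono (by omega)
    have h2d : 2 ≤ Z ^ (d + 1) := by
      calc 2 ≤ Z := hZ2
        _ = Z ^ 1 := (pow_one _).symm
        _ ≤ Z ^ (d + 1) := hmono (by omega)
    have hIc : Ci x ![] ≤ Z ^ F := (he1 x ![] (fun i => i.elim0)).trans (hmono (by omega))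
    have hGc : ∀ v, v ≤ Z ^ d → Cg x ![v] ≤ Z ^ F := fun v hv =>
      (he3 x ![v] (by intro i; fin_cases i; simpa using hv)).trans (hmono (by omega))
    have hNc : ∀ v b, v ≤ Z ^ d → b < 2 → Cn x ![v, b] ≤ Z ^ F := fun v b hv hb =>
      (he2 x ![v, b] (by
        intro i
        fin_cases i
        · show v ≤ _
          exact hv.trans hdd
        · show b ≤ _
          exact (by omega : b ≤ 2).trans h2d)).trans (hmono (by omega))
    set cB := 9 * Z ^ F with hcB
    have hPow : Z ^ (F + 6) = Z ^ F * Z ^ 6 := pow_add _ _ _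
    have h64 : 64 ≤ Z ^ 6 := by
      calc 64 = 2 ^ 6 := by norm_num
        _ ≤ Z ^ 6 := Nat.pow_le_pow_left hZ2 6
    set N := Z ^ (F + 6) with hN
    have hN64 : 64 * Z ^ F ≤ N := by rw [hPow, mul_comm]; exact Nat.mul_le_mul_left _ h64
    have hlogN : Nat.log 2 N ≤ N := Nat.log_le_self 2 N
    have hN3 : ∀ m, m ≤ N → m * (2 * Nat.log 2 N + 8) + 1 ≤ N ^ 3 := by
      intro m hm
      have h1 : 2 * Nat.log 2 N + 9 ≤ 3 * N := by omega
      have h2 : 3 * N ≤ N * N := Nat.mul_le_mul_right _ (by omega)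
      calc m * (2 * Nat.log 2 N + 8) + 1 ≤ N * (2 * Nat.log 2 N + 8) + N := by
            have := Nat.mul_le_mul_right (2 * Nat.log 2 N + 8) hm
            omega
        _ = N * (2 * Nat.log 2 N + 9) := by ring
        _ ≤ N * (N * N) := Nat.mul_le_mul_left _ (h1.trans h2)
        _ = N ^ 3 := by ring
    have hSetup : TS.CM.Setup (TS.CM.chCode A B) K A.len (A.len + 4) x (nx x) (fi x) (Inv x)
        (rk x) (Z ^ d) (4 * cB + 1) N (Nat.log 2 N + 4) := by
      refine TS.CM.setup_of hK (hInv x) (hrk x) ?_ (by omega) le_rfl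
      intro v b hv hf hb
      have hv' : v ≤ Z ^ d := hInv x v hv
      have hw' : nx x v b ≤ Z ^ d := hInv x _ (hrk x v hv hf b hb).1
      have r := run_step (G := fun x v => TS.CM.gg (fi x v)) hPn hPg x v b
      have r' := TS.run_emb (I := TS.IT x 0) r ⟨fun _ => false, 0⟩
      refine TS.Run.mono r' ?_
      have := hNc v b hv' hb
      have := hGc _ hw'
      have hb' : b ≤ 1 := by omega
      omega
    -- the start
    have r := run_init (G := fun x v => TS.CM.gg (fi x v)) hPi hPg x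
    have r' := TS.run_emb (I := TS.IT x 0) r ⟨fun _ => false, 0⟩
    have hCA : TS.CodeAt (TS.CM.chCode A B) 0 (A.code 0) := ⟨[], _, rfl, rfl⟩
    obtain ⟨n0, hn0, hs0⟩ := TS.run_code r' (TS.CM.chCode A B) 0 hCA
    have e0 : TS.embS (sv 0 0 0) ⟨fun _ => false, 0⟩ = TS.PS.init := by
      apply TS.PS.ext'
      · intro r
        show (if r = 0 then 0 else if r = 1 then 0 else if r = 2 then 0 else 0) = 0
        split_ifs <;> rfl
      · rfl
    rw [Nat.zero_add, e0] at hs0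
    have hini : ini x ≤ Z ^ d := hInv x _ (hI0 x)
    have hcost : Ci x ![] + Cg x ![ini x] ≤ 2 * Z ^ F := by
      have := hGc _ hini
      omega
    obtain ⟨c0, hseg, hsim⟩ := hSetup.seg hs0 (c0 := (TS.TMC.mach (TS.CM.chCode A B) K).init)
      TS.CM.sim_init (R := 0) (fun i => le_rfl) (by omega)
    refine ⟨cB, N, Nat.log 2 N + 4, c0, hSetup, hseg.mono ?_, hsim, ?_, ?_⟩
    · have := hN3 n0 (by omega)
      omega
    · have hT : TS.CM.T1 (4 * cB + 1) N ≤ N ^ 3 := by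
        unfold TS.CM.T1
        exact hN3 _ (by omega)
      have h4 : (x.length + 2) ^ (4 * (F + 6)) = N ^ 4 := by
        rw [← hZ, hN, ← pow_mul, mul_comm]
      rw [h4]
      calc N ^ 3 + (Z ^ d + 1) * TS.CM.T1 (4 * cB + 1) N ≤ N ^ 3 + (Z ^ d + 1) * N ^ 3 := by
            exact Nat.add_le_add_left (Nat.mul_le_mul_left _ hT) _
        _ = (Z ^ d + 2) * N ^ 3 := by ring
        _ ≤ N * N ^ 3 := Nat.mul_le_mul_right _ (by omega)
        _ = N ^ 4 := by ring
    · have h1 := log_pow_le Z (F + 6)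
      have h2 : 1 ≤ Nat.log 2 Z := Nat.log_pos (by norm_num) hZ2
      rw [← hN] at h1
      have h3 : (F + 6) * (Nat.log 2 Z + 1) ≤ (F + 6) * (2 * Nat.log 2 Z) :=
        Nat.mul_le_mul_left _ (by omega)
      calc Nat.log 2 N + 4 ≤ (F + 6) * (2 * Nat.log 2 Z) + 4 * Nat.log 2 Z := by omega
        _ = (2 * F + 16) * Nat.log 2 Z := by ring
        _ ≤ 4 * (F + 6) * Nat.log 2 Z := Nat.mul_le_mul_right _ (by omega)
  constructor
  · intro x ω
    obtain ⟨cB, N, C, c0, hS, hseg, hsim, hT, hC⟩ := key x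
    obtain ⟨t1, -, h2, h3, h4⟩ := hseg.run hS.c4 (ω := ω) (t := 0) rfl
    obtain ⟨t2, h5, h6, h7, h8⟩ := hS.run_main ω _ (ini x) (hI0 x) (hrk0 x) c0 hsim t1 h3
    have hle : t2 ≤ (x.length + 2) ^ (4 * (F + 6)) := by omega
    have hafter : ∀ t, t2 ≤ t →
        (TS.CM.coinM (TS.CM.chCode A B) K (A.len + 4)).run x ω t =
        (TS.CM.coinM (TS.CM.chCode A B) K (A.len + 4)).run x ω t2 := by
      intro t ht
      have := TS.CM.run_const h7 (t - t2)
      rwa [show t2 + (t - t2) = t by omega] at this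
    refine ⟨?_, ?_⟩
    · rw [hafter _ hle]; exact h7
    · intro t i
      have hok : TS.CM.OkR C
          ((TS.CM.coinM (TS.CM.chCode A B) K (A.len + 4)).run x ω t) := by
        by_cases ht : t ≤ t1
        · exact h4 t (by omega) ht
        · by_cases ht2 : t ≤ t2
          · exact h8 t (by omega) ht2
          · rw [hafter t (by omega)]
            exact h8 t2 h5 le_rfl
      exact (hok i).trans hC
  · intro x
    obtain ⟨cB, N, C, c0, hS, hseg, hsim, hT, hC⟩ := key x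
    obtain ⟨m, hm, e⟩ := hseg.prob hS.c4 (v := true) (t := (x.length + 2) ^ (4 * (F + 6)))
      (by omega)
    have h1 : TS.CM.toR (A.len + 4) (TS.TMC.mach (TS.CM.chCode A B) K).init =
        (TS.CM.coinM (TS.CM.chCode A B) K (A.len + 4)).init := rfl
    rw [h1] at e
    rw [e, chP_eq]
    exact hS.prob_main _ (ini x) (hI0 x) (hrk0 x) c0 hsim _ (by omega)

end Vale.Agent.P313.UD.B
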