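import Vale.Agent.P313.BundleTS

/-!
A randomized machine which simulates a goto program with one instruction `toss a coin`.
-/

namespace Vale.Agent.P313.TS.CM

open Finset TMC

/-- The machine of a goto program which tosses a coin at address `a1` and continues at `a1 + 1`
(`true`) or `a1 + 2` (`false`). -/
def coinM (code : List Instr) (K a1 : ℕ) : RTM where
  State := Fin (code.length + 1) × Fin 4
  stateFin := inferInstance
  Sym := Option Bool
  symFin := inferInstance
  blank := none
  tapes := K + 1
  start := (toPc _ 0, 0)
  verdict := fun st => if (st.1 : ℕ) = a1 then none else verd code st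
  coin := fun st => decide ((st.1 : ℕ) = a1)
  trans := fun st sy g b =>
    if (st.1 : ℕ) = a1 then ((toPc _ (if b = true then a1 + 1 else a1 + 2), 0), Dir.stay, noT g)
    else trans code K st sy g

variable {code : List Instr} {K a1 : ℕ}

/-- Configurations of `mach code K` as configurations of `coinM code K a1`. -/
def toR (a1 : ℕ) (c : (mach code K).Cfg) : (coinM code K a1).Cfg := ⟨c.state, c.pos, c.work⟩

/-- The address. -/
def pcOf (c : (mach code K).Cfg) : ℕ :=
  ((show Fin (code.length + 1) × Fin 4 from c.state).1 : ℕ)

theorem trans_ne {st : Fin (code.length + 1) × Fin 4} (h : (st.1 : ℕ) ≠ a1) (sy : InSym)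
    (g : Fin (K + 1) → Option Bool) (b : Bool) :
    (coinM code K a1).trans st sy g b = TMC.trans code K st sy g := if_neg h

theorem trans_eq {st : Fin (code.length + 1) × Fin 4} (h : (st.1 : ℕ) = a1) (sy : InSym)
    (g : Fin (K + 1) → Option Bool) (b : Bool) :
    (coinM code K a1).trans st sy g b =
      ((toPc _ (if b = true then a1 + 1 else a1 + 2), 0), Dir.stay, noT g) := if_pos h

theorem step_toR {x : List Bool} {c : (mach code K).Cfg} (h : pcOf c ≠ a1) (b : Bool) :
    (coinM code K a1).step x (toR a1 c) b = toR a1 ((mach code K).step x c false) := by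
  have e : (coinM code K a1).trans (toR a1 c).state (inSym x (toR a1 c).pos)
      (fun i => ((toR a1 c).work i).head) ((coinM code K a1).coin (toR a1 c).state && b) =
      (mach code K).trans c.state (inSym x c.pos) (fun i => (c.work i).head)
        ((mach code K).coin c.state && false) :=
    trans_ne (st := c.state) h _ _ _
  unfold RTM.step
  rw [e]
  rfl

theorem verdict_toR {c : (mach code K).Cfg} (h : pcOf c ≠ a1) :
    (coinM code K a1).verdict (toR a1 c).state = (mach code K).verdict c.state := by
  show (if ((show Fin (code.length + 1) × Fin 4 from c.state).1 : ℕ) = a1 then _ else _) = _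
  exact if_neg h

theorem coin_toR {c : (mach code K).Cfg} (h : pcOf c ≠ a1) :
    (coinM code K a1).coin (toR a1 c).state = false := by
  show decide (((show Fin (code.length + 1) × Fin 4 from c.state).1 : ℕ) = a1) = false
  exact decide_eq_false h

theorem ne_of_none (h1 : code[a1]? = some (Instr.halt true)) {c : (mach code K).Cfg}
    (h : (mach code K).verdict c.state = none) : pcOf c ≠ a1 := by
  intro he
  have h2 : verd code (show Fin (code.length + 1) × Fin 4 from c.state) = none := h
  unfold verd at h2
  have h3 : code[((show Fin (code.length + 1) × Fin 4 from c.state).1 : ℕ)]? =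
      some (Instr.halt true) := by
    have : ((show Fin (code.length + 1) × Fin 4 from c.state).1 : ℕ) = a1 := he
    rw [this]; exact h1
  rw [h3] at h2
  simp at h2

/-- A halted configuration does not change. -/
theorem nxt_fix {M : RTM} {x : List Bool} {c : M.Cfg} (h : (M.verdict c.state).isSome = true)
    (n : ℕ) : (nxt M x)^[n] c = c := by
  induction n with
  | zero => rfl
  | succ n ih =>
    rw [Function.iterate_succ_apply', ih]
    unfold nxt
    cases hv : M.verdict c.state with
    | none => rw [hv] at h; simp at h
    | some w => rfl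

/-- A path of minimal length does not halt before its end. -/
theorem path_least {M : RTM} {x : List Bool} {C T : ℕ} {c c' : M.Cfg} (h : Path M x C T c c') :
    ∃ m ≤ T, (nxt M x)^[m] c = c' ∧ (∀ j < m, M.verdict ((nxt M x)^[j] c).state = none) ∧
      ∀ j ≤ m, Ok C ((nxt M x)^[j] c) := by
  classical
  obtain ⟨t, htT, ht, hok⟩ := h
  have hex : ∃ m, (nxt M x)^[m] c = c' := ⟨t, ht⟩
  have hle : Nat.find hex ≤ t := Nat.find_min' hex ht
  refine ⟨Nat.find hex, by omega, Nat.find_spec hex, ?_, fun j hj => hok j (by omega)⟩
  intro j hj
  by_contra hcon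
  have h1 : (M.verdict ((nxt M x)^[j] c).state).isSome = true := by
    cases hv : M.verdict ((nxt M x)^[j] c).state with
    | none => exact absurd hv hcon
    | some w => rfl
  have h2 := nxt_fix (x := x) h1 (t - j)
  rw [← Function.iterate_add_apply] at h2
  have h3 : t - j + j = t := by omega
  rw [h3, ht] at h2
  exact Nat.find_min hex hj h2.symm

/-! ### Segments without coins: probabilities -/

theorem prob_halt {M : RTM} {x : List Bool} {v w : Bool} {c : M.Cfg}
    (h : M.verdict c.state = some w) (t : ℕ) :
    M.probAt x v t 0 c = if w = v then 1 else 0 := by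
  cases t with
  | zero => simp [RTM.probAt, h]
  | succ t => simp [RTM.probAt, h]

theorem nxt_none {M : RTM} {x : List Bool} {c : M.Cfg} (h : M.verdict c.state = none) :
    nxt M x c = M.step x c false := by
  unfold nxt
  rw [h]

theorem seg_prob (h1 : code[a1]? = some (Instr.halt true)) {x : List Bool} {v : Bool} (T : ℕ) :
    ∀ (m : ℕ) (c : (mach code K).Cfg),
      (∀ j < m, (mach code K).verdict ((nxt (mach code K) x)^[j] c).state = none) →
      (coinM code K a1).probAt x v (T + m) 0 (toR a1 c) =
        (coinM code K a1).probAt x v T 0 (toR a1 ((nxt (mach code K) x)^[m] c)) := by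
  intro m
  induction m with
  | zero => intro c _; rfl
  | succ m ih =>
    intro c h
    have h0 : (mach code K).verdict c.state = none := h 0 (by omega)
    have hne := ne_of_none h1 h0
    have hv : (coinM code K a1).verdict (toR a1 c).state = none := by
      rw [verdict_toR hne]; exact h0
    have hc := coin_toR (a1 := a1) hne
    have e : T + (m + 1) = (T + m) + 1 := by ring
    rw [e]
    have e2 : (coinM code K a1).probAt x v (T + m + 1) 0 (toR a1 c) =
        (coinM code K a1).probAt x v (T + m) 0 ((coinM code K a1).step x (toR a1 c) false) := by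
      simp [RTM.probAt, hv, hc]
    rw [e2, step_toR hne, ← nxt_none (x := x) h0, ih _ (fun j hj => by
      have := h (j + 1) (by omega)
      rwa [Function.iterate_succ_apply] at this), ← Function.iterate_succ_apply]

/-! ### Segments without coins: runs -/

theorem seg_run (h1 : code[a1]? = some (Instr.halt true)) {x : List Bool} {ω : ℕ → Bool}
    {t : ℕ} {c : (mach code K).Cfg} (h0 : (coinM code K a1).run x ω t = toR a1 c) {m : ℕ}
    (hm : ∀ j < m, (mach code K).verdict ((nxt (mach code K) x)^[j] c).state = none) :
    ∀ j ≤ m, (coinM code K a1).run x ω (t + j) = toR a1 ((nxt (mach code K) x)^[j] c) := by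
  intro j
  induction j with
  | zero => intro _; exact h0
  | succ j ih =>
    intro hj
    have ih' := ih (by omega)
    have hn := hm j (by omega)
    have hne := ne_of_none h1 hn
    have e : (coinM code K a1).run x ω (t + (j + 1)) =
        (coinM code K a1).step x ((coinM code K a1).run x ω (t + j)) (ω (t + j)) := by
      show (coinM code K a1).run x ω (t + j + 1) = _
      have hv : (coinM code K a1).verdict ((coinM code K a1).run x ω (t + j)).state = none := by
        rw [ih', verdict_toR hne]; exact hn
      simp only [RTM.run]
      rw [hv]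
    rw [e, ih', step_toR hne, ← nxt_none (x := x) hn, Function.iterate_succ_apply']

theorem run_const {M : RTM} {x : List Bool} {ω : ℕ → Bool} {t : ℕ}
    (h : (M.verdict (M.run x ω t).state).isSome = true) (n : ℕ) :
    M.run x ω (t + n) = M.run x ω t := by
  induction n with
  | zero => rfl
  | succ n ih =>
    show M.run x ω (t + n + 1) = _
    simp only [RTM.run]
    rw [ih]
    cases hv : M.verdict (M.run x ω t).state with
    | none => rw [hv] at h; simp at h
    | some w => rfl

/-! ### The coin -/

theorem step_coin {x : List Bool} {p : ℕ} {w : Fin (K + 1) → Tape (Option Bool)}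
    (hlt : a1 ≤ code.length) (b : Bool) :
    (coinM code K a1).step x (toR a1 (mk code K (toPc _ a1, 0) p w)) b =
      toR a1 (mk code K (toPc _ (if b = true then a1 + 1 else a1 + 2), 0) p w) := by
  have hpc : ((toPc code.length a1 : Fin (code.length + 1)) : ℕ) = a1 := by
    simp only [toPc, inf_eq_left]; exact hlt
  have hc : (coinM code K a1).coin (toR a1 (mk code K (toPc _ a1, 0) p w)).state = true := by
    show decide (((toPc code.length a1 : Fin (code.length + 1)) : ℕ) = a1) = true
    exact decide_eq_true hpc
  have e : (coinM code K a1).trans (toR a1 (mk code K (toPc _ a1, 0) p w)).state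
      (inSym x (toR a1 (mk code K (toPc _ a1, 0) p w)).pos)
      (fun i => ((toR a1 (mk code K (toPc _ a1, 0) p w)).work i).head)
      ((coinM code K a1).coin (toR a1 (mk code K (toPc _ a1, 0) p w)).state && b) =
      ((toPc _ (if b = true then a1 + 1 else a1 + 2), 0), Dir.stay,
        noT (fun i => (w i).head)) := by
    rw [hc, Bool.true_and]
    exact trans_eq (st := (toPc _ a1, 0)) hpc _ _ _
  unfold RTM.step
  rw [e]
  exact congrArg (fun W => toR a1 (mk code K
    (toPc _ (if b = true then a1 + 1 else a1 + 2), 0) p W)) (work_noT w)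

theorem verdict_coin {p : ℕ} {w : Fin (K + 1) → Tape (Option Bool)} (hlt : a1 ≤ code.length) :
    (coinM code K a1).verdict (toR a1 (mk code K (toPc _ a1, 0) p w)).state = none := by
  have hpc : ((toPc code.length a1 : Fin (code.length + 1)) : ℕ) = a1 := by
    simp only [toPc, inf_eq_left]; exact hlt
  show (if ((toPc code.length a1 : Fin (code.length + 1)) : ℕ) = a1 then _ else _) = _
  rw [if_pos hpc]

theorem coin_coin {p : ℕ} {w : Fin (K + 1) → Tape (Option Bool)} (hlt : a1 ≤ code.length) :
    (coinM code K a1).coin (toR a1 (mk code K (toPc _ a1, 0) p w)).state = true := by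
  have hpc : ((toPc code.length a1 : Fin (code.length + 1)) : ℕ) = a1 := by
    simp only [toPc, inf_eq_left]; exact hlt
  show decide (((toPc code.length a1 : Fin (code.length + 1)) : ℕ) = a1) = true
  exact decide_eq_true hpc

/-! ### Simulation of several steps, from any configuration -/

theorem sim_from {N C : ℕ} {x : Inp} (hK : ∀ i ∈ code, IOk K i)
    (hC1 : Nat.log 2 N + 4 ≤ C) (hC2 : x.H + 1 ≤ C)
    {n : ℕ} {g0 g : ℕ × PS} (hs : GSteps code x n g0 g) {c0 : (mach code K).Cfg}
    (h0 : Sim N x.H c0 g0) {R : ℕ} (hR : ∀ i, g0.2.reg i ≤ R) :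
    R + n ≤ N → (∀ i, g.2.reg i ≤ R + n) ∧
      ∃ c', Path (mach code K) x.word C (n * (2 * Nat.log 2 N + 8)) c0 c' ∧
        Sim N x.H c' g := by
  induction hs with
  | refl c =>
    intro _
    refine ⟨fun i => by simpa using hR i, c0, (TMC.Path.refl ?_).mono (by simp), h0⟩
    obtain ⟨w, rfl, hw, hm⟩ := h0
    exact sim_ok hw hm hC1 hC2
  | tail hs hg ih =>
    intro hn
    obtain ⟨hreg, c', hp, hsim⟩ := ih h0 hR (by omega)
    have hreg' := reg_step hK hg hreg
    refine ⟨fun i => (hreg' i).trans (by omega), ?_⟩
    obtain ⟨c'', hp', hsim'⟩ := sim_step hK hsim hg (fun i => (hreg' i).trans (by omega)) hC1 hC2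
    exact ⟨c'', (hp.trans hp').mono (le_of_eq (by ring)), hsim'⟩

end Vale.Agent.P313.TS.CM
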