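import Vale.Agent.P313.H72.UD.B1

/-!
A goto program with a coin which runs a chain: probabilities and resources.
-/

namespace Vale.Agent.P313.TS.CM

open Finset TMC

/-- The registers: `0` holds `v`, `1` holds `b`, `2` holds `f`. -/
def st (v b f : ℕ) : PS :=
  ⟨fun r => if r = 0 then v else if r = 1 then b else if r = 2 then f else 0, 0,
    ⟨fun _ => false, 0⟩⟩

theorem st_reg_le (v b f i : ℕ) : (st v b f).reg i ≤ v + b + f := by
  simp only [st]
  split_ifs <;> omega

/-- `0`: continue, `2`: accept, `1`: reject. -/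
def gg (f : ℕ) : ℕ := if f = 0 then 0 else if f = 2 then 2 else 1

theorem gg_le (f : ℕ) : gg f ≤ 2 := by
  unfold gg; split_ifs <;> omega

/-- The probability that the chain is accepted within `r` coins. -/
def cP (nx : ℕ → ℕ → ℕ) (fi : ℕ → ℕ) : ℕ → ℕ → ℚ
  | 0, v => if fi v = 2 then 1 else 0
  | r + 1, v =>
    if fi v = 0 then (cP nx fi r (nx v 0) + cP nx fi r (nx v 1)) / 2
    else if fi v = 2 then 1 else 0

theorem cP_stop {nx : ℕ → ℕ → ℕ} {fi : ℕ → ℕ} {r v : ℕ} (h : fi v ≠ 0) :
    cP nx fi r v = if fi v = 2 then 1 else 0 := by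
  cases r with
  | zero => rfl
  | succ r => simp [cP, h]

/-- The chain program. -/
structure Setup (code : List Instr) (K a0 a1 : ℕ) (x : List Bool) (nx : ℕ → ℕ → ℕ) (fi : ℕ → ℕ)
    (Inv : ℕ → Prop) (rk : ℕ → ℕ) (R0 M N C : ℕ) : Prop where
  hK : ∀ i ∈ code, IOk K i
  c0 : code[a0]? = some (Instr.jzdec 2 a1)
  c1 : code[a0 + 1]? = some (Instr.jzdec 2 (a0 + 3))
  c2 : code[a0 + 2]? = some (Instr.halt true)
  c3 : code[a0 + 3]? = some (Instr.halt false)
  c4 : code[a1]? = some (Instr.halt true)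
  c5 : code[a1 + 1]? = some (Instr.inc 1)
  inv : ∀ v, Inv v → v ≤ R0
  rk : ∀ v, Inv v → fi v = 0 → ∀ b < 2, Inv (nx v b) ∧ rk (nx v b) < rk v
  stp : ∀ v b, Inv v → fi v = 0 → b < 2 → ∃ n ≤ M,
    GSteps code (IT x 0) n (a1 + 2, st v b 0) (a0, st (nx v b) 0 (gg (fi (nx v b))))
  hN : R0 + M + 6 ≤ N
  hC : Nat.log 2 N + 4 ≤ C

variable {code : List Instr} {K a0 a1 : ℕ} {x : List Bool} {nx : ℕ → ℕ → ℕ} {fi : ℕ → ℕ}
  {Inv : ℕ → Prop} {rk : ℕ → ℕ} {R0 M N C : ℕ}

theorem Setup.lt (h : Setup code K a0 a1 x nx fi Inv rk R0 M N C) : a1 ≤ code.length := by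
  by_contra hcon
  have := h.c4
  rw [List.getElem?_eq_none (by omega)] at this
  simp at this

/-- A segment of the machine `coinM` without coins. -/
def Seg (code : List Instr) (K : ℕ) (x : List Bool) (C T : ℕ) (c c' : (mach code K).Cfg) : Prop :=
  ∃ m ≤ T, (nxt (mach code K) x)^[m] c = c' ∧
    (∀ j < m, (mach code K).verdict ((nxt (mach code K) x)^[j] c).state = none) ∧
      ∀ j ≤ m, Ok C ((nxt (mach code K) x)^[j] c)

theorem Setup.seg (h : Setup code K a0 a1 x nx fi Inv rk R0 M N C) {n R : ℕ} {g0 g : ℕ × PS}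
    (hs : GSteps code (IT x 0) n g0 g) {c0 : (mach code K).Cfg}
    (h0 : Sim N 0 c0 g0) (hR : ∀ i, g0.2.reg i ≤ R) (hn : R + n ≤ N) :
    ∃ c', Seg code K x C (n * (2 * Nat.log 2 N + 8)) c0 c' ∧ Sim N 0 c' g := by
  obtain ⟨-, c', hp, hs'⟩ := sim_from (x := IT x 0) h.hK h.hC (by
    have := h.hC
    show 0 + 1 ≤ C
    omega) hs h0 hR hn
  exact ⟨c', path_least hp, hs'⟩

theorem Seg.mono {T T' : ℕ} {c c' : (mach code K).Cfg} (h : Seg code K x C T c c')
    (hT : T ≤ T') : Seg code K x C T' c c' := by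
  obtain ⟨m, h1, h2⟩ := h
  exact ⟨m, h1.trans hT, h2⟩

theorem Seg.prob (h1 : code[a1]? = some (Instr.halt true)) {T : ℕ} {c c' : (mach code K).Cfg}
    (h : Seg code K x C T c c') {v : Bool} {t : ℕ} (ht : T ≤ t) :
    ∃ m ≤ T, (coinM code K a1).probAt x v t 0 (toR a1 c) =
      (coinM code K a1).probAt x v (t - m) 0 (toR a1 c') := by
  obtain ⟨m, hm, e, hv, -⟩ := h
  refine ⟨m, hm, ?_⟩
  have := seg_prob (K := K) h1 (x := x) (v := v) (t - m) m c hv
  rw [show t - m + m = t by omega, e] at this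
  exact this

/-- Configurations of `coinM` use at most `C` cells. -/
def OkR {M : RTM} (C : ℕ) (c : M.Cfg) : Prop := ∀ i, (c.work i).cells ≤ C

theorem Seg.run (h1 : code[a1]? = some (Instr.halt true)) {T : ℕ} {c c' : (mach code K).Cfg}
    (h : Seg code K x C T c c') {ω : ℕ → Bool} {t : ℕ}
    (h0 : (coinM code K a1).run x ω t = toR a1 c) :
    ∃ t', t ≤ t' ∧ t' ≤ t + T ∧ (coinM code K a1).run x ω t' = toR a1 c' ∧
      ∀ s, t ≤ s → s ≤ t' → OkR C ((coinM code K a1).run x ω s) := by
  obtain ⟨m, hm, e, hv, hok⟩ := h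
  have h2 := seg_run h1 h0 hv
  refine ⟨t + m, by omega, by omega, ?_, ?_⟩
  · rw [h2 m le_rfl, e]
  · intro s hs1 hs2
    obtain ⟨j, rfl⟩ : ∃ j, s = t + j := ⟨s - t, by omega⟩
    rw [h2 j (by omega)]
    exact hok j (by omega)

/-- Time for one round. -/
def T1 (M N : ℕ) : ℕ := (M + 2) * (2 * Nat.log 2 N + 8) + 1

theorem Setup.stop (h : Setup code K a0 a1 x nx fi Inv rk R0 M N C) {v : ℕ} (hv : Inv v)
    (hf : fi v ≠ 0) {c : (mach code K).Cfg} (hc : Sim N 0 c (a0, st v 0 (gg (fi v)))) :
    ∃ c', Seg code K x C (T1 M N) c c' ∧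
      (coinM code K a1).verdict (toR a1 c').state = some (decide (fi v = 2)) := by
  have hvR := h.inv v hv
  have hN := h.hN
  have hR : ∀ i, (st v 0 (gg (fi v))).reg i ≤ R0 + 2 := fun i => by
    have := st_reg_le v 0 (gg (fi v)) i
    have := gg_le (fi v)
    omega
  have key : ∀ (w : Bool) (a : ℕ), code[a]? = some (Instr.halt w) → a ≠ a1 →
      ∀ s, GSteps code (IT x 0) 2 (a0, st v 0 (gg (fi v))) (a, s) →
      ∃ c', Seg code K x C (T1 M N) c c' ∧
        (coinM code K a1).verdict (toR a1 c').state = some w := by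
    intro w a ha hne s hs
    obtain ⟨c', hseg, hsim⟩ := h.seg hs hc hR (by omega)
    refine ⟨c', hseg.mono ?_, ?_⟩
    · unfold T1
      nlinarith [Nat.zero_le (M * (2 * Nat.log 2 N + 8))]
    · obtain ⟨W, rfl, -, -⟩ := hsim
      have hlt : a < code.length := by
        by_contra hcon
        rw [List.getElem?_eq_none (by omega)] at ha
        simp at ha
      have hpc : ((toPc code.length a : Fin (code.length + 1)) : ℕ) = a := by
        simp only [toPc, inf_eq_left]; omega
      have hne' : pcOf (TMC.mk code K (toPc _ a, 0) s.pos W) ≠ a1 := by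
        show ((toPc code.length a : Fin (code.length + 1)) : ℕ) ≠ a1
        rw [hpc]; exact hne
      refine (verdict_toR hne').trans ?_
      show verd code (toPc code.length a, 0) = some w
      simp only [verd, hpc, ha]
  by_cases h2 : fi v = 2
  · have hg : gg (fi v) = 2 := by simp [gg, h2]
    rw [hg] at key
    have := key true (a0 + 2) h.c2 (by
      intro he
      have := h.c5
      rw [← he, show a0 + 2 + 1 = a0 + 3 by ring, h.c3] at this
      simp at this) _ (GSteps.tail (GSteps.tail (GSteps.refl _) (c2 := (a0 + 1, st v 0 1)) (by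
        simp only [gstep, h.c0]
        rw [if_neg (by simp [st])]
        congr 2
        apply PS.ext'
        · intro r
          simp only [st, PS.set, Function.update_apply]
          split_ifs <;> simp_all
        · rfl)) (c2 := (a0 + 1 + 1, (st v 0 1).set 2 ((st v 0 1).reg 2 - 1))) (by
        simp only [gstep, h.c1]
        rw [if_neg (by simp [st])]))
    simpa [h2] using this
  · have hg : gg (fi v) = 1 := by simp [gg, h2, hf]
    rw [hg] at key
    have := key false (a0 + 3) h.c3 (by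
      intro he
      have := h.c4
      rw [← he, h.c3] at this
      simp at this) _ (GSteps.tail (GSteps.tail (GSteps.refl _) (c2 := (a0 + 1, st v 0 0)) (by
        simp only [gstep, h.c0]
        rw [if_neg (by simp [st])]
        congr 2
        apply PS.ext'
        · intro r
          simp only [st, PS.set, Function.update_apply]
          split_ifs <;> simp_all
        · rfl)) (c2 := (a0 + 3, st v 0 0)) (by
        simp only [gstep, h.c1]
        rw [if_pos (by simp [st])]))
    simpa [h2] using this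

/-- To the coin. -/
theorem Setup.toCoin (h : Setup code K a0 a1 x nx fi Inv rk R0 M N C) {v : ℕ} (hv : Inv v)
    (hf : fi v = 0) {c : (mach code K).Cfg} (hc : Sim N 0 c (a0, st v 0 (gg (fi v)))) :
    ∃ W : Fin (K + 1) → Tape (Option Bool),
      Seg code K x C (2 * Nat.log 2 N + 8) c (TMC.mk code K (toPc _ a1, 0) 0 W) ∧
      ∀ a, Sim N 0 (TMC.mk code K (toPc _ a, 0) 0 W) (a, st v 0 0) := by
  have hvR := h.inv v hv
  have hN := h.hN
  have hg : gg (fi v) = 0 := by simp [gg, hf]
  rw [hg] at hc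
  have hR : ∀ i, (st v 0 0).reg i ≤ R0 := fun i => by
    have := st_reg_le v 0 0 i
    omega
  obtain ⟨c', hseg, hsim⟩ := h.seg (n := 1) (g := (a1, st v 0 0))
    (GSteps.tail (GSteps.refl _) (by
      simp only [gstep, h.c0]
      rw [if_pos (by simp [st])])) hc hR (by omega)
  obtain ⟨W, rfl, hW, hm⟩ := hsim
  exact ⟨W, hseg.mono (by omega), fun a => ⟨W, rfl, hW, hm⟩⟩

/-- From the coin. -/
theorem Setup.fromCoin (h : Setup code K a0 a1 x nx fi Inv rk R0 M N C) {v : ℕ} (hv : Inv v)
    (hf : fi v = 0) {W : Fin (K + 1) → Tape (Option Bool)}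
    (hc : ∀ a, Sim N 0 (TMC.mk code K (toPc _ a, 0) 0 W) (a, st v 0 0)) (b : Bool) :
    ∃ c', Seg code K x C ((M + 1) * (2 * Nat.log 2 N + 8))
      (TMC.mk code K (toPc _ (if b = true then a1 + 1 else a1 + 2), 0) 0 W) c' ∧
      Sim N 0 c' (a0, st (nx v b.toNat) 0 (gg (fi (nx v b.toNat)))) := by
  have hvR := h.inv v hv
  have hN := h.hN
  cases b with
  | false =>
    obtain ⟨n, hn, hs⟩ := h.stp v 0 hv hf (by omega)
    obtain ⟨c', hseg, hsim⟩ := h.seg hs (hc (a1 + 2)) (R := R0) (fun i => by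
      have := st_reg_le v 0 0 i
      simp only
      omega) (by omega)
    refine ⟨c', hseg.mono ?_, hsim⟩
    exact Nat.mul_le_mul_right _ (by omega)
  | true =>
    obtain ⟨n, hn, hs⟩ := h.stp v 1 hv hf (by omega)
    have hs1 : GSteps code (IT x 0) 1 (a1 + 1, st v 0 0) (a1 + 2, st v 1 0) := by
      refine GSteps.tail (GSteps.refl _) ?_
      simp only [gstep, h.c5]
      congr 2
      apply PS.ext'
      · intro r
        simp only [st, PS.set, Function.update_apply]
        split_ifs <;> simp_all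
      · rfl
    obtain ⟨c', hseg, hsim⟩ := h.seg (hs1.trans hs) (hc (a1 + 1)) (R := R0) (fun i => by
      have := st_reg_le v 0 0 i
      simp only
      omega) (by omega)
    refine ⟨c', hseg.mono ?_, hsim⟩
    exact Nat.mul_le_mul_right _ (by omega)

/-- **Probabilities.** -/
theorem Setup.prob_main (h : Setup code K a0 a1 x nx fi Inv rk R0 M N C) :
    ∀ (r v : ℕ), Inv v → rk v ≤ r → ∀ c : (mach code K).Cfg,
      Sim N 0 c (a0, st v 0 (gg (fi v))) → ∀ t, (r + 1) * T1 M N ≤ t →
      (coinM code K a1).probAt x true t 0 (toR a1 c) = cP nx fi r v := by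
  intro r
  induction r with
  | zero =>
    intro v hv hr c hc t ht
    have hf : fi v ≠ 0 := fun hf => by
      have := (h.rk v hv hf 0 (by omega)).2
      omega
    obtain ⟨c', hseg, hver⟩ := h.stop hv hf hc
    obtain ⟨m, -, e⟩ := hseg.prob h.c4 (v := true) (t := t) (by simpa using ht)
    rw [e, prob_halt hver, cP_stop hf]
    by_cases h2 : fi v = 2 <;> simp [h2]
  | succ r ih =>
    intro v hv hr c hc t ht
    have hT : (r + 1 + 1) * T1 M N = (r + 1) * T1 M N + T1 M N := by ring
    rw [hT] at ht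
    by_cases hf : fi v = 0
    · obtain ⟨W, hseg, hW⟩ := h.toCoin hv hf hc
      have hB : 2 * Nat.log 2 N + 8 ≤ T1 M N := by
        unfold T1
        nlinarith [Nat.zero_le (M * (2 * Nat.log 2 N + 8))]
      obtain ⟨m, hm, e⟩ := hseg.prob h.c4 (v := true) (t := t) (by omega)
      have hT1 : T1 M N = (M + 1) * (2 * Nat.log 2 N + 8) + (2 * Nat.log 2 N + 8) + 1 := by
        unfold T1; ring
      obtain ⟨s, hs⟩ : ∃ s, t - m = s + 1 := ⟨t - m - 1, by omega⟩
      have hv0 := verdict_coin (K := K) (p := 0) (w := W) h.lt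
      have hc0 := coin_coin (K := K) (p := 0) (w := W) h.lt
      have e1 : (coinM code K a1).probAt x true (s + 1) 0
          (toR a1 (TMC.mk code K (toPc _ a1, 0) 0 W)) =
          ((coinM code K a1).probAt x true s 0
            ((coinM code K a1).step x (toR a1 (TMC.mk code K (toPc _ a1, 0) 0 W)) false) +
          (coinM code K a1).probAt x true s 0
            ((coinM code K a1).step x (toR a1 (TMC.mk code K (toPc _ a1, 0) 0 W)) true)) / 2 := by
        simp [RTM.probAt, hv0, hc0]
      have key : ∀ b : Bool, (coinM code K a1).probAt x true s 0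
          ((coinM code K a1).step x (toR a1 (TMC.mk code K (toPc _ a1, 0) 0 W)) b) =
          cP nx fi r (nx v b.toNat) := by
        intro b
        rw [step_coin h.lt]
        obtain ⟨c', hseg', hsim'⟩ := h.fromCoin hv hf hW b
        obtain ⟨m', hm', e'⟩ := hseg'.prob h.c4 (v := true) (t := s) (by
          have : 0 ≤ (r + 1) * T1 M N := Nat.zero_le _
          omega)
        rw [e']
        have hb : b.toNat < 2 := by cases b <;> simp
        obtain ⟨h3, h4⟩ := h.rk v hv hf b.toNat hb
        exact ih _ h3 (by omega) c' hsim' _ (by omega)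
      rw [e, hs, e1, key false, key true]
      simp [cP, hf]
    · obtain ⟨c', hseg, hver⟩ := h.stop hv hf hc
      obtain ⟨m, -, e⟩ := hseg.prob h.c4 (v := true) (t := t) (by omega)
      rw [e, prob_halt hver, cP_stop hf]
      by_cases h2 : fi v = 2 <;> simp [h2]

/-- **Resources.** -/
theorem Setup.run_main (h : Setup code K a0 a1 x nx fi Inv rk R0 M N C) (ω : ℕ → Bool) :
    ∀ (r v : ℕ), Inv v → rk v ≤ r → ∀ c : (mach code K).Cfg,
      Sim N 0 c (a0, st v 0 (gg (fi v))) → ∀ t, (coinM code K a1).run x ω t = toR a1 c →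
      ∃ t', t ≤ t' ∧ t' ≤ t + (r + 1) * T1 M N ∧
        ((coinM code K a1).verdict ((coinM code K a1).run x ω t').state).isSome = true ∧
        ∀ s, t ≤ s → s ≤ t' → OkR C ((coinM code K a1).run x ω s) := by
  intro r
  induction r with
  | zero =>
    intro v hv hr c hc t ht
    have hf : fi v ≠ 0 := fun hf => by
      have := (h.rk v hv hf 0 (by omega)).2
      omega
    obtain ⟨c', hseg, hver⟩ := h.stop hv hf hc
    obtain ⟨t', h1, h2, h3, h4⟩ := hseg.run h.c4 ht
    refine ⟨t', h1, by simpa using h2, ?_, h4⟩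
    rw [h3, hver]
    rfl
  | succ r ih =>
    intro v hv hr c hc t ht
    have hT : (r + 1 + 1) * T1 M N = (r + 1) * T1 M N + T1 M N := by ring
    rw [hT]
    by_cases hf : fi v = 0
    · obtain ⟨W, hseg, hW⟩ := h.toCoin hv hf hc
      have hT1 : T1 M N = (M + 1) * (2 * Nat.log 2 N + 8) + (2 * Nat.log 2 N + 8) + 1 := by
        unfold T1; ring
      obtain ⟨t1, h1, h2, h3, h4⟩ := hseg.run h.c4 ht
      have hv0 := verdict_coin (K := K) (p := 0) (w := W) h.lt
      have e : (coinM code K a1).run x ω (t1 + 1) =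
          (coinM code K a1).step x ((coinM code K a1).run x ω t1) (ω t1) := by
        have hv : (coinM code K a1).verdict ((coinM code K a1).run x ω t1).state = none := by
          rw [h3]; exact hv0
        simp only [RTM.run]
        rw [hv]
      rw [h3, step_coin h.lt] at e
      obtain ⟨c', hseg', hsim'⟩ := h.fromCoin hv hf hW (ω t1)
      obtain ⟨t2, h5, h6, h7, h8⟩ := hseg'.run h.c4 e
      have hb : (ω t1).toNat < 2 := by cases ω t1 <;> simp
      obtain ⟨h9, h10⟩ := h.rk v hv hf (ω t1).toNat hb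
      obtain ⟨t3, h11, h12, h13, h14⟩ := ih _ h9 (by omega) c' hsim' t2 h7
      refine ⟨t3, by omega, by omega, h13, ?_⟩
      intro s hs1 hs2
      by_cases ha : s ≤ t1
      · exact h4 s hs1 ha
      · by_cases hb' : s ≤ t2
        · exact h8 s (by omega) hb'
        · exact h14 s (by omega) hs2
    · obtain ⟨c', hseg, hver⟩ := h.stop hv hf hc
      obtain ⟨t', h1, h2, h3, h4⟩ := hseg.run h.c4 ht
      refine ⟨t', h1, by omega, ?_, h4⟩
      rw [h3, hver]
      rfl

end Vale.Agent.P313.TS.CM
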