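import Vale.Agent.P313.H72.UD.B2
import Vale.Agent.P313.H463.UD.Defs

/-!
Module B: chains in `LF` are simulated by randomized machines.
-/

namespace Vale.Agent.P313.TS.CM

open Finset TMC

theorem emb_noO : ∀ p : P313.Prog, (emb p).NoO := by
  intro p
  induction p with
  | skip => trivial
  | inc r => trivial
  | dec r => trivial
  | seq p q ihp ihq => exact ⟨ihp, ihq⟩
  | ifz r p q ihp ihq => exact ⟨ihp, ihq⟩
  | loop r p ih => exact ih
  | inL => trivial
  | inR => trivial
  | ifin f p q ihp ihq => exact ⟨ihp, ihq⟩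

theorem sim_init {code : List Instr} {K N : ℕ} : Sim N 0 (mach code K).init (0, PS.init) := by
  refine ⟨fun _ => ⟨[], none, []⟩, rfl, ?_, ?_⟩
  · intro i _
    exact ⟨[], 0, by omega, rfl, rfl, by simp⟩
  · refine ⟨rfl, rfl, fun i => ?_, by simp [PS.init]⟩
    show obv (([] : List (Option Bool)).getD i none) = false
    simp [obv]

/-- The code of the chain program. -/
def chCode (A B : Prog) : List Instr :=
  A.code 0 ++ (Instr.jzdec 2 (A.len + 4) :: Instr.jzdec 2 (A.len + 3) :: Instr.halt true ::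
    Instr.halt false :: Instr.halt true :: Instr.inc 1 ::
      (B.code (A.len + 6) ++ [Instr.jmp A.len]))

theorem chCode_no {A B : Prog} (hA : A.NoO) (hB : B.NoO) : ∀ i ∈ chCode A B, NoOra i := by
  intro i hi
  simp only [chCode, List.mem_append, List.mem_cons, List.not_mem_nil, or_false] at hi
  rcases hi with h | h | h | h | h | h | h | h | h
  · exact noOra_code _ _ hA _ h
  · subst h; trivial
  · subst h; trivial
  · subst h; trivial
  · subst h; trivial
  · subst h; trivial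
  · subst h; trivial
  · exact noOra_code _ _ hB _ h
  · subst h; trivial

/-- The setup for a chain program. -/
theorem setup_of {A B : Prog} {K : ℕ} (hK : ∀ i ∈ chCode A B, IOk K i) {x : List Bool}
    {nx : ℕ → ℕ → ℕ} {fi : ℕ → ℕ} {Inv : ℕ → Prop} {rk : ℕ → ℕ} {R0 cB N C : ℕ}
    (inv : ∀ v, Inv v → v ≤ R0)
    (hrk : ∀ v, Inv v → fi v = 0 → ∀ b < 2, Inv (nx v b) ∧ rk (nx v b) < rk v)
    (hB : ∀ v b, Inv v → fi v = 0 → b < 2 →
      Run (IT x 0) B (st v b 0) (st (nx v b) 0 (gg (fi (nx v b)))) cB)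
    (hN : R0 + (4 * cB + 1) + 6 ≤ N) (hC : Nat.log 2 N + 4 ≤ C) :
    Setup (chCode A B) K A.len (A.len + 4) x nx fi Inv rk R0 (4 * cB + 1) N C := by
  have h0 : CodeAt (chCode A B) A.len (Instr.jzdec 2 (A.len + 4) ::
      Instr.jzdec 2 (A.len + 3) :: Instr.halt true :: Instr.halt false :: Instr.halt true ::
      Instr.inc 1 :: (B.code (A.len + 6) ++ [Instr.jmp A.len])) :=
    ⟨A.code 0, [], by simp [chCode], by rw [Prog.length_code]⟩
  have h1 := h0.tail rfl
  have h2 := h1.tail rfl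
  have h3 := h2.tail rfl
  have h4 := h3.tail rfl
  have h5 := h4.tail rfl
  have h6 := h5.tail rfl
  have h7 := h6.right (b := A.len + 6 + B.len) (by rw [Prog.length_code])
  refine ⟨hK, h0.head, h1.head, h2.head, h3.head, h4.head, h5.head, inv, hrk, ?_, hN, hC⟩
  intro v b hv hf hb
  obtain ⟨n, hn, hs⟩ := run_code (hB v b hv hf hb) (chCode A B) (A.len + 6) h6.left
  refine ⟨n + 1, by omega, GSteps.tail hs ?_⟩
  simp only [gstep, h7.head]

end Vale.Agent.P313.TS.CM

namespace Vale.Agent.P313.UD.B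

open Finset

/-- Registers of a program without tape. -/
def sv (v b f : ℕ) : PS :=
  ⟨fun r => if r = 0 then v else if r = 1 then b else if r = 2 then f else 0, 0⟩

theorem embS_sv (v b f : ℕ) : TS.embS (sv v b f) ⟨fun _ => false, 0⟩ = TS.CM.st v b f := rfl

theorem log_pow_le (Z k : ℕ) : Nat.log 2 (Z ^ k) ≤ k * (Nat.log 2 Z + 1) := by
  have h1 : Z < 2 ^ (Nat.log 2 Z + 1) := Nat.lt_pow_succ_log_self (by norm_num) Z
  have h2 : Z ^ k ≤ 2 ^ (k * (Nat.log 2 Z + 1)) := by
    rw [mul_comm, pow_mul]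
    exact Nat.pow_le_pow_left h1.le k
  calc Nat.log 2 (Z ^ k) ≤ Nat.log 2 (2 ^ (k * (Nat.log 2 Z + 1))) := Nat.log_mono_right h2
    _ = k * (Nat.log 2 Z + 1) := Nat.log_pow (by norm_num) _

theorem pb_bound {k : ℕ} {C : Fn k} (h : PB C) (d : ℕ) : ∃ E, ∀ (x : List Bool) (a : Fin k → ℕ),
    (∀ i, a i ≤ (x.length + 2) ^ d) → C x a ≤ (x.length + 2) ^ E := by
  obtain ⟨e, he⟩ := h
  refine ⟨(k + d + 1) * e, fun x a ha => (he x a).trans ?_⟩
  rw [pow_mul]
  refine Nat.pow_le_pow_left ?_ e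
  have hZ : 2 ≤ x.length + 2 := by omega
  have h1 : ∑ i, a i ≤ k * (x.length + 2) ^ d := by
    calc ∑ i, a i ≤ ∑ _i : Fin k, (x.length + 2) ^ d := sum_le_sum (fun i _ => ha i)
      _ = k * (x.length + 2) ^ d := by rw [sum_const, card_univ, Fintype.card_fin, smul_eq_mul]
  have h2 : k + 1 ≤ (x.length + 2) ^ k := by
    calc k + 1 ≤ 2 ^ k := Nat.lt_two_pow_self
      _ ≤ (x.length + 2) ^ k := Nat.pow_le_pow_left hZ k
  have h3 : (x.length + 2) ^ d ≤ (x.length + 2) ^ (d + 1) :=
    Nat.pow_le_pow_right (by omega) (by omega)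
  have h4 : x.length + 2 ≤ (x.length + 2) ^ (d + 1) := by
    calc x.length + 2 = (x.length + 2) ^ 1 := (pow_one _).symm
      _ ≤ (x.length + 2) ^ (d + 1) := Nat.pow_le_pow_right (by omega) (by omega)
  calc mu x a = (x.length + 2) + ∑ i, a i := by unfold mu; ring
    _ ≤ (x.length + 2) ^ (d + 1) + k * (x.length + 2) ^ (d + 1) :=
        Nat.add_le_add h4 (h1.trans (Nat.mul_le_mul_left _ h3))
    _ = (k + 1) * (x.length + 2) ^ (d + 1) := by ring
    _ ≤ (x.length + 2) ^ k * (x.length + 2) ^ (d + 1) := Nat.mul_le_mul_right _ h2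
    _ = (x.length + 2) ^ (k + d + 1) := by rw [← pow_add]; ring_nf

theorem chP_eq (nx : ℕ → ℕ → ℕ) (fi : ℕ → ℕ) : ∀ r v, chP nx fi r v = TS.CM.cP nx fi r v := by
  intro r
  induction r with
  | zero => intro v; rfl
  | succ r ih => intro v; simp only [chP, TS.CM.cP, ih]

/-- Program for one round. -/
theorem run_step {nx : List Bool → ℕ → ℕ → ℕ} {G : List Bool → ℕ → ℕ}
    {Pn : (Fin 2 → ℕ) → ℕ → ℕ → Prog} {Cn : Fn 2}
    (hn : ∀ (args : Fin 2 → ℕ) (out b : ℕ), (∀ i, args i < b) → out < b → (∀ i, args i ≠ out) →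
    ∀ (x : List Bool) (s : PS), (∀ r, b ≤ r → s.reg r = 0) → s.reg out = 0 → s.pos = 0 →
      Run x (Pn args out b) s (s.set out (nx x (s.reg (args 0)) (s.reg (args 1))))
        (Cn x (fun i => s.reg (args i))))
    {Pg : (Fin 1 → ℕ) → ℕ → ℕ → Prog} {Cg : Fn 1}
    (hg : ∀ (args : Fin 1 → ℕ) (out b : ℕ), (∀ i, args i < b) → out < b → (∀ i, args i ≠ out) →
    ∀ (x : List Bool) (s : PS), (∀ r, b ≤ r → s.reg r = 0) → s.reg out = 0 → s.pos = 0 →
      Run x (Pg args out b) s (s.set out (G x (s.reg (args 0))))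
        (Cg x (fun i => s.reg (args i)))) (x : List Bool) (v b : ℕ) :
    Run x (Prog.seq (Pn ![0, 1] 3 4) (Prog.seq (clear 0) (Prog.seq (clear 1)
        (Prog.seq (move 3 0) (Pg ![0] 2 4))))) (sv v b 0)
      (sv (nx x v b) 0 (G x (nx x v b)))
      (Cn x ![v, b] + ((v + 1) + ((b + 1) + ((2 * nx x v b + 1) + Cg x ![nx x v b])))) := by
  have r1 := hn ![0, 1] 3 4 (by intro i; fin_cases i <;> simp) (by omega)
    (by intro i; fin_cases i <;> simp) x (sv v b 0) (by
      intro r hr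
      simp only [sv]
      rw [if_neg (by omega), if_neg (by omega), if_neg (by omega)]) (by simp [sv]) rfl
  have ea : (fun i => (sv v b 0).reg ((![0, 1] : Fin 2 → ℕ) i)) = ![v, b] := by
    funext i
    fin_cases i <;> simp [sv]
  rw [ea] at r1
  have e1 : nx x ((sv v b 0).reg ((![0, 1] : Fin 2 → ℕ) 0))
      ((sv v b 0).reg ((![0, 1] : Fin 2 → ℕ) 1)) = nx x v b := by simp [sv]
  rw [e1] at r1
  set w := nx x v b with hw
  have r2 := run_clear (x := x) 0 ((sv v b 0).set 3 w)
  have r3 := run_clear (x := x) 1 (((sv v b 0).set 3 w).set 0 0)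
  have r4 := run_move (x := x) (r := 3) (o := 0) (by omega)
    ((((sv v b 0).set 3 w).set 0 0).set 1 0)
  have e4 : (((((sv v b 0).set 3 w).set 0 0).set 1 0).set 3 0).set 0
      (((((sv v b 0).set 3 w).set 0 0).set 1 0).reg 0 +
        ((((sv v b 0).set 3 w).set 0 0).set 1 0).reg 3) = sv w 0 0 := by
    apply PS.ext'
    · intro r
      simp only [sv, PS.set, Function.update_apply]
      split_ifs <;> first | rfl | omega | simp_all
    · rfl
  rw [e4] at r4
  have r5 := hg ![0] 2 4 (by intro i; fin_cases i; simp) (by omega)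
    (by intro i; fin_cases i; simp) x (sv w 0 0) (by
      intro r hr
      simp only [sv]
      rw [if_neg (by omega), if_neg (by omega), if_neg (by omega)]) (by simp [sv]) rfl
  have ea5 : (fun i => (sv w 0 0).reg ((![0] : Fin 1 → ℕ) i)) = ![w] := by
    funext i
    fin_cases i; simp [sv]
  rw [ea5] at r5
  have e5 : (sv w 0 0).set 2 (G x ((sv w 0 0).reg ((![0] : Fin 1 → ℕ) 0))) = sv w 0 (G x w) := by
    apply PS.ext'
    · intro r
      have : (sv w 0 0).reg ((![0] : Fin 1 → ℕ) 0) = w := by simp [sv]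
      rw [this]
      simp only [sv, PS.set, Function.update_apply]
      split_ifs <;> first | rfl | omega | simp_all
    · rfl
  rw [e5] at r5
  have c2 : ((sv v b 0).set 3 w).reg 0 = v := by simp [sv, PS.set]
  have c3 : (((sv v b 0).set 3 w).set 0 0).reg 1 = b := by simp [sv, PS.set]
  have c4 : ((((sv v b 0).set 3 w).set 0 0).set 1 0).reg 3 = w := by simp [sv, PS.set]
  rw [c2] at r2
  rw [c3] at r3
  rw [c4] at r4
  exact Run.seq r1 (Run.seq r2 (Run.seq r3 (Run.seq r4 r5)))

/-- Program for the start. -/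
theorem run_init {ini : List Bool → ℕ} {G : List Bool → ℕ → ℕ}
    {Pi : (Fin 0 → ℕ) → ℕ → ℕ → Prog} {Ci : Fn 0}
    (hi : ∀ (args : Fin 0 → ℕ) (out b : ℕ), (∀ i, args i < b) → out < b → (∀ i, args i ≠ out) →
    ∀ (x : List Bool) (s : PS), (∀ r, b ≤ r → s.reg r = 0) → s.reg out = 0 → s.pos = 0 →
      Run x (Pi args out b) s (s.set out (ini x)) (Ci x (fun i => s.reg (args i))))
    {Pg : (Fin 1 → ℕ) → ℕ → ℕ → Prog} {Cg : Fn 1}
    (hg : ∀ (args : Fin 1 → ℕ) (out b : ℕ), (∀ i, args i < b) → out < b → (∀ i, args i ≠ out) →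
    ∀ (x : List Bool) (s : PS), (∀ r, b ≤ r → s.reg r = 0) → s.reg out = 0 → s.pos = 0 →
      Run x (Pg args out b) s (s.set out (G x (s.reg (args 0))))
        (Cg x (fun i => s.reg (args i)))) (x : List Bool) :
    Run x (Prog.seq (Pi ![] 0 4) (Pg ![0] 2 4)) (sv 0 0 0)
      (sv (ini x) 0 (G x (ini x))) (Ci x ![] + Cg x ![ini x]) := by
  have r1 := hi ![] 0 4 (by intro i; exact i.elim0) (by omega)
    (by intro i; exact i.elim0) x (sv 0 0 0) (by
      intro r hr
      simp only [sv]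
      rw [if_neg (by omega), if_neg (by omega), if_neg (by omega)]) (by simp [sv]) rfl
  have ea : (fun i => (sv 0 0 0).reg ((![] : Fin 0 → ℕ) i)) = ![] := by
    funext i
    exact i.elim0
  rw [ea] at r1
  set w := ini x with hw
  have e1 : (sv 0 0 0).set 0 w = sv w 0 0 := by
    apply PS.ext'
    · intro r
      simp only [sv, PS.set, Function.update_apply]
      split_ifs <;> first | rfl | omega | simp_all
    · rfl
  rw [e1] at r1
  have r5 := hg ![0] 2 4 (by intro i; fin_cases i; simp) (by omega)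
    (by intro i; fin_cases i; simp) x (sv w 0 0) (by
      intro r hr
      simp only [sv]
      rw [if_neg (by omega), if_neg (by omega), if_neg (by omega)]) (by simp [sv]) rfl
  have ea5 : (fun i => (sv w 0 0).reg ((![0] : Fin 1 → ℕ) i)) = ![w] := by
    funext i
    fin_cases i; simp [sv]
  rw [ea5] at r5
  have e5 : (sv w 0 0).set 2 (G x ((sv w 0 0).reg ((![0] : Fin 1 → ℕ) 0))) = sv w 0 (G x w) := by
    apply PS.ext'
    · intro r
      have : (sv w 0 0).reg ((![0] : Fin 1 → ℕ) 0) = w := by simp [sv]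
      rw [this]
      simp only [sv, PS.set, Function.update_apply]
      split_ifs <;> first | rfl | omega | simp_all
    · rfl
  rw [e5] at r5
  exact Run.seq r1 r5

end Vale.Agent.P313.UD.B
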